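import Vale.Agent.Lib.P047.Walsh

/-!
# P047: a packed Walsh-Hadamard transform for kernel evaluation on large truth tables

A Boolean function on `n` bits is given by a truth table `T : ℕ` with `2^n` bits (`bitFun n T`).
The table is spread into fields of `w` bits (`spread`), transformed by a divide-and-conquer
butterfly on packed natural numbers (`pwht`), and the packed spectrum is inspected with `chk`
(all coefficients of sets of size at least `k` vanish) and `fld` (one coefficient).  The field at
position `posOf n S` of the packed spectrum holds `2^n + ∑_x f(x) χ_S(x)`.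
-/

namespace Vale.Agent.Lib.P047

/-- `pM w n = 2^(w 2^n)`: the modulus of a block of `2^n` fields of `w` bits each. -/
def pM (w n : ℕ) : ℕ := 2 ^ (w * 2 ^ n)

/-- The Boolean function on `n` bits with truth table `T`: the value at `x` is `1` iff bit
`∑_i [x_i = -1] 2^(n-1-i)` of `T` is set (the first coordinate is the most significant one). -/
def bitFun : (n : ℕ) → ℕ → (Fin n → ℤˣ) → ℤˣ
  | 0, T, _ => if T % 2 = 1 then 1 else -1
  | n + 1, T, x => if x 0 = 1 then bitFun n (T % 2 ^ 2 ^ n) (fun i => x i.succ)
      else bitFun n (T / 2 ^ 2 ^ n) (fun i => x i.succ)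

/-- Spread the `2^n` bits of `T` into fields of `w` bits. -/
def spread (w : ℕ) : ℕ → ℕ → ℕ
  | 0, T => T % 2
  | n + 1, T => spread w n (T % 2 ^ 2 ^ n) + spread w n (T / 2 ^ 2 ^ n) * pM w n

/-- The repunit `∑_{k < 2^n} 2^(w k)`. -/
def rep (w n : ℕ) : ℕ := (pM w n - 1) / (2 ^ w - 1)

/-- The packed Walsh-Hadamard transform of a packed table whose fields hold `value + o`;
the fields of the result hold `coefficient + 2^n o`. -/
def pwht (w o : ℕ) : ℕ → ℕ → ℕ
  | 0, A => A
  | n + 1, A => pwht w o n (A % pM w n) * (pM w n + 1) + 2 ^ (n + 1) * o * rep w n * pM w n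
      - pwht w o n (A / pM w n) * (pM w n - 1)

/-- All fields at positions of weight at least `k` are equal to `O`. -/
def chk (w O : ℕ) : ℕ → ℕ → ℕ → Bool
  | 0, k, A => decide (k = 0 → A = O)
  | n + 1, k, A => chk w O n k (A % pM w n) && chk w O n (k - 1) (A / pM w n)

/-- The field at position `p`. -/
def fld (w : ℕ) (A p : ℕ) : ℕ := (A / 2 ^ (w * p)) % 2 ^ w

/-- The position of the set `S` in the packed spectrum. -/
def posOf (n : ℕ) (S : Finset (Fin n)) : ℕ := ∑ i ∈ S, 2 ^ (n - 1 - (i : ℕ))

/-- The packed spectrum of the Boolean function with truth table `T`. -/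
def pspec (w n T : ℕ) : ℕ := pwht w 1 n (2 * spread w n T)

/-- The packed table of an integer-valued function, with offset `o` in every field. -/
def encT (w : ℕ) : (n : ℕ) → ℤ → ((Fin n → ℤˣ) → ℤ) → ℤ
  | 0, o, F => F Fin.elim0 + o
  | n + 1, o, F => encT w n o (fun y => F (Fin.cons 1 y)) +
      encT w n o (fun y => F (Fin.cons (-1) y)) * (pM w n : ℤ)

/-- The packed list of character sums of an integer-valued function, with offset `o`. -/
def encS (w : ℕ) : (n : ℕ) → ℤ → ((Fin n → ℤˣ) → ℤ) → ℤ
  | 0, o, F => F Fin.elim0 + o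
  | n + 1, o, F => encS w n o (fun y => F (Fin.cons 1 y) + F (Fin.cons (-1) y)) +
      encS w n o (fun y => F (Fin.cons 1 y) - F (Fin.cons (-1) y)) * (pM w n : ℤ)

end Vale.Agent.Lib.P047
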