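import Vale.Agent.Lib.P047.PK.Defs

/-!
# P047, packed transform: reading the packed spectrum
-/

namespace Vale.Agent.Lib.P047

theorem pkr_pM_zero (w : ℕ) : pM w 0 = 2 ^ w := by
  unfold pM
  rw [pow_zero, Nat.mul_one]

theorem pkr_pM_succ (w n : ℕ) : pM w (n + 1) = pM w n * pM w n := by
  unfold pM
  rw [← pow_add]
  congr 1
  ring

theorem pkr_pM_pos (w n : ℕ) : 0 < pM w n := by
  unfold pM
  exact pow_pos (by norm_num) _

/-- The sum of the two halves of a bounded function is bounded by twice the bound. -/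
theorem pkr_half_add {n : ℕ} (F : (Fin (n + 1) → ℤˣ) → ℤ) (b : ℕ)
    (hF : ∀ x, |F x| ≤ (b : ℤ)) (y : Fin n → ℤˣ) :
    |F (Fin.cons 1 y) + F (Fin.cons (-1) y)| ≤ ((2 * b : ℕ) : ℤ) := by
  have h1 := abs_le.mp (hF (Fin.cons 1 y))
  have h2 := abs_le.mp (hF (Fin.cons (-1) y))
  rw [abs_le]
  push_cast
  constructor <;> linarith

/-- The difference of the two halves of a bounded function is bounded by twice the bound. -/
theorem pkr_half_sub {n : ℕ} (F : (Fin (n + 1) → ℤˣ) → ℤ) (b : ℕ)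
    (hF : ∀ x, |F x| ≤ (b : ℤ)) (y : Fin n → ℤˣ) :
    |F (Fin.cons 1 y) - F (Fin.cons (-1) y)| ≤ ((2 * b : ℕ) : ℤ) := by
  have h1 := abs_le.mp (hF (Fin.cons 1 y))
  have h2 := abs_le.mp (hF (Fin.cons (-1) y))
  rw [abs_le]
  push_cast
  constructor <;> linarith

theorem pkr_bound_succ {n b O : ℕ} (hb : 2 ^ (n + 1) * b ≤ O) : 2 ^ n * (2 * b) ≤ O := by
  have h : 2 ^ n * (2 * b) = 2 ^ (n + 1) * b := by ring
  rw [h]
  exact hb

/-- The packed list of character sums of a bounded function lies in `[0, pM w n)`. -/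
theorem pkr_range (w : ℕ) : ∀ (n : ℕ) (F : (Fin n → ℤˣ) → ℤ) (b O : ℕ),
    (∀ x, |F x| ≤ (b : ℤ)) → 2 ^ n * b ≤ O → 2 * O < 2 ^ w →
    0 ≤ encS w n (O : ℤ) F ∧ encS w n (O : ℤ) F < (pM w n : ℤ)
  | 0, F, b, O, hF, hb, hO => by
      have h1 := abs_le.mp (hF Fin.elim0)
      have hbO : b ≤ O := by
        rw [pow_zero, Nat.one_mul] at hb
        exact hb
      have hb' : (b : ℤ) ≤ (O : ℤ) := by exact_mod_cast hbO
      have hO' : (2 : ℤ) * (O : ℤ) < (2 : ℤ) ^ w := by exact_mod_cast hO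
      rw [pkr_pM_zero]
      show 0 ≤ F Fin.elim0 + (O : ℤ) ∧ F Fin.elim0 + (O : ℤ) < ((2 ^ w : ℕ) : ℤ)
      push_cast
      constructor <;> linarith
  | n + 1, F, b, O, hF, hb, hO => by
      have hb2 := pkr_bound_succ hb
      obtain ⟨h0a, h0b⟩ := pkr_range w n _ (2 * b) O (pkr_half_add F b hF) hb2 hO
      obtain ⟨h1a, h1b⟩ := pkr_range w n _ (2 * b) O (pkr_half_sub F b hF) hb2 hO
      have hM : (0 : ℤ) < (pM w n : ℤ) := by exact_mod_cast pkr_pM_pos w n
      rw [pkr_pM_succ]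
      show 0 ≤ encS w n (O : ℤ) (fun y => F (Fin.cons 1 y) + F (Fin.cons (-1) y)) +
            encS w n (O : ℤ) (fun y => F (Fin.cons 1 y) - F (Fin.cons (-1) y)) * (pM w n : ℤ) ∧
          encS w n (O : ℤ) (fun y => F (Fin.cons 1 y) + F (Fin.cons (-1) y)) +
            encS w n (O : ℤ) (fun y => F (Fin.cons 1 y) - F (Fin.cons (-1) y)) * (pM w n : ℤ)
            < ((pM w n * pM w n : ℕ) : ℤ)
      push_cast
      constructor
      · exact add_nonneg h0a (mul_nonneg h1a hM.le)
      · have h2 : encS w n (O : ℤ) (fun y => F (Fin.cons 1 y) - F (Fin.cons (-1) y)) + 1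
            ≤ (pM w n : ℤ) := h1b
        have h3 := mul_le_mul_of_nonneg_right h2 hM.le
        linarith

/-- Splitting a packed list of character sums into its two halves. -/
theorem pkr_split (w n : ℕ) (F : (Fin (n + 1) → ℤˣ) → ℤ) (b O A : ℕ)
    (hF : ∀ x, |F x| ≤ (b : ℤ)) (hb : 2 ^ (n + 1) * b ≤ O) (hO : 2 * O < 2 ^ w)
    (hA : (A : ℤ) = encS w (n + 1) (O : ℤ) F) :
    ((A % pM w n : ℕ) : ℤ)
        = encS w n (O : ℤ) (fun y => F (Fin.cons 1 y) + F (Fin.cons (-1) y)) ∧
      ((A / pM w n : ℕ) : ℤ)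
        = encS w n (O : ℤ) (fun y => F (Fin.cons 1 y) - F (Fin.cons (-1) y)) := by
  have hb2 := pkr_bound_succ hb
  obtain ⟨h0a, h0b⟩ := pkr_range w n _ (2 * b) O (pkr_half_add F b hF) hb2 hO
  have hM : (0 : ℤ) < (pM w n : ℤ) := by exact_mod_cast pkr_pM_pos w n
  have hA' : (A : ℤ) = encS w n (O : ℤ) (fun y => F (Fin.cons 1 y) + F (Fin.cons (-1) y)) +
      encS w n (O : ℤ) (fun y => F (Fin.cons 1 y) - F (Fin.cons (-1) y)) * (pM w n : ℤ) := hA
  constructor
  · rw [Int.natCast_mod, hA', Int.add_mul_emod_self_right, Int.emod_eq_of_lt h0a h0b]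
  · rw [Int.natCast_div, hA', Int.add_mul_ediv_right _ _ hM.ne', Int.ediv_eq_zero_of_lt h0a h0b,
      zero_add]

/-- The character sum of a function of no variables at the empty set. -/
theorem pkr_entry_zero (F : (Fin 0 → ℤˣ) → ℤ) : entry 0 F ∅ = F Fin.elim0 := by
  unfold entry
  rw [Fintype.sum_eq_single (Fin.elim0 : Fin 0 → ℤˣ)
    (fun x hx => absurd (Subsingleton.elim x _) hx)]
  simp

theorem pkr_chk_sound (w O : ℕ) (hO : 2 * O < 2 ^ w) :
    ∀ (n k : ℕ) (F : (Fin n → ℤˣ) → ℤ) (b A : ℕ),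
    (∀ x, |F x| ≤ (b : ℤ)) → 2 ^ n * b ≤ O → (A : ℤ) = encS w n (O : ℤ) F →
    chk w O n k A = true → ∀ S : Finset (Fin n), k ≤ S.card → entry n F S = 0
  | 0, k, F, b, A, _, _, hA, h, S, hS => by
      have hS0 : S = ∅ := Finset.eq_empty_of_isEmpty S
      subst hS0
      have hk : k = 0 := by simpa using hS
      subst hk
      have hAO : A = O := by simpa [chk] using h
      have hA' : (A : ℤ) = F Fin.elim0 + (O : ℤ) := hA
      rw [hAO] at hA'
      rw [pkr_entry_zero]
      linarith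
  | n + 1, k, F, b, A, hF, hb, hA, h, S, hS => by
      have hb2 := pkr_bound_succ hb
      obtain ⟨hs0, hs1⟩ := pkr_split w n F b O A hF hb hO hA
      rw [chk, Bool.and_eq_true] at h
      rw [entry_succ]
      have hc := card_cons n S
      split_ifs with h0
      · rw [if_pos h0] at hc
        exact pkr_chk_sound w O hO n (k - 1) _ (2 * b) _ (pkr_half_sub F b hF) hb2 hs1 h.2 _
          (by omega)
      · rw [if_neg h0] at hc
        exact pkr_chk_sound w O hO n k _ (2 * b) _ (pkr_half_add F b hF) hb2 hs0 h.1 _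
          (by omega)

/-- The position of a set, split according to the first coordinate. -/
theorem pkr_posOf_succ (n : ℕ) (S : Finset (Fin (n + 1))) :
    posOf (n + 1) S = (if (0 : Fin (n + 1)) ∈ S then 2 ^ n else 0) +
      posOf n (Finset.univ.filter (fun j : Fin n => Fin.succ j ∈ S)) := by
  unfold posOf
  rw [← Finset.sum_filter_add_sum_filter_not S (fun i => i = 0)]
  congr 1
  · by_cases h0 : (0 : Fin (n + 1)) ∈ S
    · have hf : S.filter (fun i => i = 0) = {0} := by
        ext i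
        simp only [Finset.mem_filter, Finset.mem_singleton]
        constructor
        · exact fun h => h.2
        · rintro rfl
          exact ⟨h0, rfl⟩
      rw [hf, Finset.sum_singleton, if_pos h0]
      simp
    · have hf : S.filter (fun i => i = 0) = ∅ := by
        ext i
        simp only [Finset.mem_filter, Finset.notMem_empty, iff_false, not_and]
        rintro hi rfl
        exact h0 hi
      rw [hf, Finset.sum_empty, if_neg h0]
  · have hf : S.filter (fun i => ¬ i = 0) =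
        (Finset.univ.filter (fun j : Fin n => Fin.succ j ∈ S)).map (Fin.succEmb n) := by
      ext i
      simp only [Finset.mem_filter, Finset.mem_map, Finset.mem_univ, true_and, Fin.coe_succEmb]
      constructor
      · rintro ⟨hi, hne⟩
        obtain ⟨j, rfl⟩ := Fin.exists_succ_eq_of_ne_zero hne
        exact ⟨j, hi, rfl⟩
      · rintro ⟨j, hj, rfl⟩
        exact ⟨hj, Fin.succ_ne_zero j⟩
    rw [hf, Finset.sum_map]
    refine Finset.sum_congr rfl (fun j _ => ?_)
    congr 1
    simp only [Fin.coe_succEmb, Fin.val_succ]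
    omega

/-- The position of a set is smaller than the number of fields. -/
theorem pkr_posOf_lt : ∀ (n : ℕ) (S : Finset (Fin n)), posOf n S < 2 ^ n
  | 0, S => by
      have hS0 : S = ∅ := Finset.eq_empty_of_isEmpty S
      subst hS0
      unfold posOf
      simp
  | n + 1, S => by
      rw [pkr_posOf_succ]
      have h := pkr_posOf_lt n (Finset.univ.filter (fun j : Fin n => Fin.succ j ∈ S))
      have h2 : (if (0 : Fin (n + 1)) ∈ S then 2 ^ n else 0) ≤ 2 ^ n := by
        split_ifs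
        · exact le_rfl
        · exact Nat.zero_le _
      rw [pow_succ]
      omega

/-- A field of the upper half of a packed block. -/
theorem pkr_fld_high (w n A p : ℕ) : fld w A (2 ^ n + p) = fld w (A / pM w n) p := by
  unfold fld pM
  rw [Nat.mul_add, pow_add, Nat.div_div_eq_div_mul]

/-- A field of the lower half of a packed block. -/
theorem pkr_fld_low (w n A p : ℕ) (hp : p < 2 ^ n) : fld w A p = fld w (A % pM w n) p := by
  have hM : pM w n = 2 ^ (w * p) * (2 ^ w * 2 ^ (w * (2 ^ n - p - 1))) := by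
    unfold pM
    rw [← pow_add, ← pow_add]
    congr 1
    obtain ⟨c, hc⟩ : ∃ c, 2 ^ n = p + 1 + c := ⟨2 ^ n - p - 1, by omega⟩
    rw [hc]
    have hsub : p + 1 + c - p - 1 = c := by omega
    rw [hsub]
    ring
  obtain ⟨a0, ha0⟩ : ∃ a0, a0 = A % pM w n := ⟨_, rfl⟩
  obtain ⟨a1, ha1⟩ : ∃ a1, a1 = A / pM w n := ⟨_, rfl⟩
  have hA : A = a0 + pM w n * a1 := by
    rw [ha0, ha1]
    exact (Nat.mod_add_div A (pM w n)).symm
  have key : a0 + pM w n * a1
      = a0 + 2 ^ (w * p) * (2 ^ w * (2 ^ (w * (2 ^ n - p - 1)) * a1)) := by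
    rw [hM]
    ring
  rw [← ha0]
  unfold fld
  rw [hA, key, Nat.add_mul_div_left _ _ (pow_pos (by norm_num) _), Nat.add_mul_mod_self_left]

theorem pkr_fld_entry (w O : ℕ) (hO : 2 * O < 2 ^ w) :
    ∀ (n : ℕ) (F : (Fin n → ℤˣ) → ℤ) (b A : ℕ),
    (∀ x, |F x| ≤ (b : ℤ)) → 2 ^ n * b ≤ O → (A : ℤ) = encS w n (O : ℤ) F →
    ∀ S : Finset (Fin n), ((fld w A (posOf n S) : ℕ) : ℤ) = entry n F S + (O : ℤ)
  | 0, F, b, A, hF, hb, hA, S => by
      have hS0 : S = ∅ := Finset.eq_empty_of_isEmpty S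
      subst hS0
      obtain ⟨_, hlt⟩ := pkr_range w 0 F b O hF hb hO
      rw [← hA, pkr_pM_zero] at hlt
      have hAlt : A < 2 ^ w := by exact_mod_cast hlt
      have hf : fld w A (posOf 0 ∅) = A := by
        unfold fld posOf
        rw [Finset.sum_empty, Nat.mul_zero, pow_zero, Nat.div_one, Nat.mod_eq_of_lt hAlt]
      rw [hf, hA, pkr_entry_zero]
      rfl
  | n + 1, F, b, A, hF, hb, hA, S => by
      have hb2 := pkr_bound_succ hb
      obtain ⟨hs0, hs1⟩ := pkr_split w n F b O A hF hb hO hA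
      have hp := pkr_posOf_succ n S
      have hlt := pkr_posOf_lt n (Finset.univ.filter (fun j : Fin n => Fin.succ j ∈ S))
      rw [entry_succ]
      split_ifs with h0
      · rw [if_pos h0] at hp
        rw [hp, pkr_fld_high]
        exact pkr_fld_entry w O hO n _ (2 * b) _ (pkr_half_sub F b hF) hb2 hs1 _
      · rw [if_neg h0, Nat.zero_add] at hp
        rw [hp, pkr_fld_low w n A _ hlt]
        exact pkr_fld_entry w O hO n _ (2 * b) _ (pkr_half_add F b hF) hb2 hs0 _

/-- If the check succeeds, all character sums of sets of size at least `k` vanish. -/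
theorem chk_sound (w n k : ℕ) (F : (Fin n → ℤˣ) → ℤ) (b O A : ℕ)
    (hF : ∀ x, |F x| ≤ (b : ℤ)) (hb : 2 ^ n * b ≤ O) (hO : 2 * O < 2 ^ w)
    (hA : (A : ℤ) = encS w n (O : ℤ) F) (h : chk w O n k A = true) :
    ∀ S : Finset (Fin n), k ≤ S.card → entry n F S = 0 :=
  pkr_chk_sound w O hO n k F b A hF hb hA h

/-- The field at position `posOf n S` holds the character sum of `S` plus the offset. -/
theorem fld_entry (w n : ℕ) (F : (Fin n → ℤˣ) → ℤ) (b O A : ℕ)
    (hF : ∀ x, |F x| ≤ (b : ℤ)) (hb : 2 ^ n * b ≤ O) (hO : 2 * O < 2 ^ w)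
    (hA : (A : ℤ) = encS w n (O : ℤ) F) (S : Finset (Fin n)) :
    ((fld w A (posOf n S) : ℕ) : ℤ) = entry n F S + (O : ℤ) :=
  pkr_fld_entry w O hO n F b A hF hb hA S

end Vale.Agent.Lib.P047
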