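import Vale.Agent.Lib.P047.PK.Transform
import Vale.Agent.Lib.P047.PK.Read

/-!
# P047, packed transform: kernel-checkable criteria for `bitFun n T`
-/

namespace Vale.Agent.Lib.P047

theorem abs_bitFun_le (n T : ℕ) (x : Fin n → ℤˣ) : |((bitFun n T x : ℤˣ) : ℤ)| ≤ ((1 : ℕ) : ℤ) := by
  rcases Int.units_eq_one_or (bitFun n T x) with h | h <;> simp [h]

theorem two_mul_lt_of_le (w n : ℕ) (hw : n + 2 ≤ w) : 2 * 2 ^ n < 2 ^ w := by
  calc 2 * 2 ^ n = 2 ^ (n + 1) := by ring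
    _ < 2 ^ (n + 2) := Nat.pow_lt_pow_right (by norm_num) (by omega)
    _ ≤ 2 ^ w := Nat.pow_le_pow_right (by norm_num) hw

/-- Kernel-checkable criterion for the degree of `bitFun n T`. -/
theorem degree_bitFun_le (w n d T : ℕ) (hw : n + 2 ≤ w)
    (h : chk w (2 ^ n) n (d + 1) (pspec w n T) = true) : degree (bitFun n T) ≤ d := by
  apply degree_le_of
  intro S hS
  by_contra hcon
  apply hS
  have hA : ((pspec w n T : ℕ) : ℤ) =
      encS w n ((2 ^ n : ℕ) : ℤ) (fun x => ((bitFun n T x : ℤˣ) : ℤ)) := by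
    rw [pspec_eq w n T hw]
    push_cast
    rfl
  rw [fourier_eq_entry, chk_sound w n (d + 1) _ 1 (2 ^ n) (pspec w n T) (abs_bitFun_le n T)
    (by simp) (two_mul_lt_of_le w n hw) hA h S (by omega)]
  simp

/-- Every Fourier coefficient of `bitFun n T` can be read off the packed spectrum. -/
theorem fourier_bitFun (w n T : ℕ) (hw : n + 2 ≤ w) (S : Finset (Fin n)) :
    fourier (bitFun n T) S =
      (((fld w (pspec w n T) (posOf n S) : ℕ) : ℝ) - 2 ^ n) / 2 ^ n := by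
  have hA : ((pspec w n T : ℕ) : ℤ) =
      encS w n ((2 ^ n : ℕ) : ℤ) (fun x => ((bitFun n T x : ℤˣ) : ℤ)) := by
    rw [pspec_eq w n T hw]
    push_cast
    rfl
  have h := fld_entry w n _ 1 (2 ^ n) (pspec w n T) (abs_bitFun_le n T)
    (by simp) (two_mul_lt_of_le w n hw) hA S
  rw [fourier_eq_entry]
  have h2 : ((entry n (fun x => ((bitFun n T x : ℤˣ) : ℤ)) S : ℤ) : ℝ) =
      ((fld w (pspec w n T) (posOf n S) : ℕ) : ℝ) - 2 ^ n := by
    have h3 : entry n (fun x => ((bitFun n T x : ℤˣ) : ℤ)) S =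
        ((fld w (pspec w n T) (posOf n S) : ℕ) : ℤ) - ((2 ^ n : ℕ) : ℤ) := by
      rw [h]; ring
    rw [h3]
    push_cast
    ring
  rw [h2]

/-- The level-one coefficients. -/
theorem fourier_bitFun_single (w n T : ℕ) (hw : n + 2 ≤ w) (i : Fin n) :
    fourier (bitFun n T) {i} =
      (((fld w (pspec w n T) (2 ^ (n - 1 - (i : ℕ))) : ℕ) : ℝ) - 2 ^ n) / 2 ^ n := by
  rw [fourier_bitFun w n T hw {i}]
  unfold posOf
  rw [Finset.sum_singleton]

end Vale.Agent.Lib.P047
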