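import Vale.Agent.Lib.P047.PK.Defs

/-!
# P047, packed transform: `pspec` computes the packed spectrum
-/

namespace Vale.Agent.Lib.P047

theorem pkt_encT_zero (w : ℕ) (o : ℤ) (F : (Fin 0 → ℤˣ) → ℤ) :
    encT w 0 o F = F Fin.elim0 + o := rfl

theorem pkt_encT_succ (w n : ℕ) (o : ℤ) (F : (Fin (n + 1) → ℤˣ) → ℤ) :
    encT w (n + 1) o F = encT w n o (fun y => F (Fin.cons 1 y)) +
      encT w n o (fun y => F (Fin.cons (-1) y)) * (pM w n : ℤ) := rfl

theorem pkt_encS_zero (w : ℕ) (o : ℤ) (F : (Fin 0 → ℤˣ) → ℤ) :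
    encS w 0 o F = F Fin.elim0 + o := rfl

theorem pkt_encS_succ (w n : ℕ) (o : ℤ) (F : (Fin (n + 1) → ℤˣ) → ℤ) :
    encS w (n + 1) o F = encS w n o (fun y => F (Fin.cons 1 y) + F (Fin.cons (-1) y)) +
      encS w n o (fun y => F (Fin.cons 1 y) - F (Fin.cons (-1) y)) * (pM w n : ℤ) := rfl

theorem pkt_pwht_succ (w o n A : ℕ) :
    pwht w o (n + 1) A = pwht w o n (A % pM w n) * (pM w n + 1)
      + 2 ^ (n + 1) * o * rep w n * pM w n - pwht w o n (A / pM w n) * (pM w n - 1) := rfl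

theorem pkt_pM_pos (w n : ℕ) : 0 < pM w n := by
  unfold pM
  positivity

theorem pkt_pM_zero (w : ℕ) : pM w 0 = 2 ^ w := by
  unfold pM
  rw [pow_zero, mul_one]

theorem pkt_pM_succ (w n : ℕ) : pM w (n + 1) = pM w n * pM w n := by
  unfold pM
  rw [← pow_add]
  congr 1
  ring

/-! ### The truth table -/

theorem pkt_bitFun_cons_one (n T : ℕ) (y : Fin n → ℤˣ) :
    bitFun (n + 1) T (Fin.cons 1 y) = bitFun n (T % 2 ^ 2 ^ n) y := by
  simp [bitFun]

theorem pkt_bitFun_cons_neg (n T : ℕ) (y : Fin n → ℤˣ) :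
    bitFun (n + 1) T (Fin.cons (-1) y) = bitFun n (T / 2 ^ 2 ^ n) y := by
  have hne : ¬ ((-1 : ℤˣ) = 1) := by decide
  simp [bitFun, hne]

theorem pkt_spread (w : ℕ) : ∀ (n T : ℕ),
    ((2 * spread w n T : ℕ) : ℤ) = encT w n 1 (fun x => ((bitFun n T x : ℤˣ) : ℤ)) := by
  intro n
  induction n with
  | zero =>
    intro T
    rw [pkt_encT_zero]
    simp only [spread, bitFun]
    rcases Nat.mod_two_eq_zero_or_one T with h | h <;> simp [h]
  | succ n ih =>
    intro T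
    rw [pkt_encT_succ]
    simp only [pkt_bitFun_cons_one, pkt_bitFun_cons_neg]
    rw [← ih, ← ih]
    simp only [spread]
    push_cast
    ring

/-! ### The packed table -/

theorem pkt_encT_range (w : ℕ) : ∀ (n : ℕ) (o : ℤ) (F : (Fin n → ℤˣ) → ℤ),
    (∀ x, 0 ≤ F x + o ∧ F x + o < (2 : ℤ) ^ w) →
    0 ≤ encT w n o F ∧ encT w n o F < (pM w n : ℤ) := by
  intro n
  induction n with
  | zero =>
    intro o F hF
    rw [pkt_encT_zero, pkt_pM_zero]
    push_cast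
    exact hF _
  | succ n ih =>
    intro o F hF
    obtain ⟨h0, h0M⟩ := ih o (fun y => F (Fin.cons 1 y)) (fun y => hF _)
    obtain ⟨h1, h1M⟩ := ih o (fun y => F (Fin.cons (-1) y)) (fun y => hF _)
    have hM : (0 : ℤ) ≤ (pM w n : ℤ) := Nat.cast_nonneg _
    rw [pkt_encT_succ, pkt_pM_succ]
    push_cast
    constructor
    · exact add_nonneg h0 (mul_nonneg h1 hM)
    · have h2 : (encT w n o (fun y => F (Fin.cons (-1) y)) + 1) * (pM w n : ℤ)
          ≤ (pM w n : ℤ) * (pM w n : ℤ) := mul_le_mul_of_nonneg_right (by linarith) hM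
      linarith

/-! ### The repunit -/

theorem pkt_two_pow_sub_pos (w : ℕ) (hw : 1 ≤ w) : 0 < 2 ^ w - 1 := by
  have h : 1 < 2 ^ w := Nat.one_lt_two_pow (by omega)
  omega

theorem pkt_rep_zero (w : ℕ) (hw : 1 ≤ w) : rep w 0 = 1 := by
  unfold rep
  rw [pkt_pM_zero]
  exact Nat.div_self (pkt_two_pow_sub_pos w hw)

theorem pkt_sq_sub_one (M : ℕ) (hM : 0 < M) : M * M - 1 = (M - 1) * (M + 1) := by
  obtain ⟨m, rfl⟩ := Nat.exists_eq_succ_of_ne_zero hM.ne'
  apply Nat.sub_eq_of_eq_add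
  simp only [Nat.succ_eq_add_one, Nat.add_sub_cancel]
  ring

theorem pkt_rep_succ (w n : ℕ) (hw : 1 ≤ w) : rep w (n + 1) = rep w n * (pM w n + 1) := by
  have hd := pkt_two_pow_sub_pos w hw
  have hdvd : 2 ^ w - 1 ∣ pM w n - 1 := by
    have h := Nat.sub_one_dvd_pow_sub_one (2 ^ w) (2 ^ n)
    rw [← pow_mul] at h
    exact h
  obtain ⟨q, hq⟩ := hdvd
  have h1 : pM w (n + 1) - 1 = (2 ^ w - 1) * (q * (pM w n + 1)) := by
    rw [pkt_pM_succ, pkt_sq_sub_one _ (pkt_pM_pos w n), hq]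
    ring
  unfold rep
  rw [h1, hq, Nat.mul_div_cancel_left _ hd, Nat.mul_div_cancel_left _ hd]

/-! ### The packed spectrum -/

theorem pkt_encS_add (w : ℕ) : ∀ (n : ℕ) (o1 o2 : ℤ) (F G : (Fin n → ℤˣ) → ℤ),
    encS w n (o1 + o2) (fun x => F x + G x) = encS w n o1 F + encS w n o2 G := by
  intro n
  induction n with
  | zero =>
    intro o1 o2 F G
    rw [pkt_encS_zero, pkt_encS_zero, pkt_encS_zero]
    ring
  | succ n ih =>
    intro o1 o2 F G
    rw [pkt_encS_succ, pkt_encS_succ, pkt_encS_succ]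
    have e1 : (fun y : Fin n → ℤˣ => F (Fin.cons 1 y) + G (Fin.cons 1 y)
        + (F (Fin.cons (-1) y) + G (Fin.cons (-1) y)))
        = fun y => (F (Fin.cons 1 y) + F (Fin.cons (-1) y))
          + (G (Fin.cons 1 y) + G (Fin.cons (-1) y)) := by
      funext y
      ring
    have e2 : (fun y : Fin n → ℤˣ => F (Fin.cons 1 y) + G (Fin.cons 1 y)
        - (F (Fin.cons (-1) y) + G (Fin.cons (-1) y)))
        = fun y => (F (Fin.cons 1 y) - F (Fin.cons (-1) y))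
          + (G (Fin.cons 1 y) - G (Fin.cons (-1) y)) := by
      funext y
      ring
    rw [e1, e2, ih, ih]
    ring

theorem pkt_encS_sub (w : ℕ) : ∀ (n : ℕ) (o1 o2 : ℤ) (F G : (Fin n → ℤˣ) → ℤ),
    encS w n (o1 - o2) (fun x => F x - G x) = encS w n o1 F - encS w n o2 G := by
  intro n
  induction n with
  | zero =>
    intro o1 o2 F G
    rw [pkt_encS_zero, pkt_encS_zero, pkt_encS_zero]
    ring
  | succ n ih =>
    intro o1 o2 F G
    rw [pkt_encS_succ, pkt_encS_succ, pkt_encS_succ]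
    have e1 : (fun y : Fin n → ℤˣ => F (Fin.cons 1 y) - G (Fin.cons 1 y)
        + (F (Fin.cons (-1) y) - G (Fin.cons (-1) y)))
        = fun y => (F (Fin.cons 1 y) + F (Fin.cons (-1) y))
          - (G (Fin.cons 1 y) + G (Fin.cons (-1) y)) := by
      funext y
      ring
    have e2 : (fun y : Fin n → ℤˣ => F (Fin.cons 1 y) - G (Fin.cons 1 y)
        - (F (Fin.cons (-1) y) - G (Fin.cons (-1) y)))
        = fun y => (F (Fin.cons 1 y) - F (Fin.cons (-1) y))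
          - (G (Fin.cons 1 y) - G (Fin.cons (-1) y)) := by
      funext y
      ring
    rw [e1, e2, ih, ih]
    ring

theorem pkt_encS_shift (w : ℕ) (hw : 1 ≤ w) : ∀ (n : ℕ) (o c : ℤ) (F : (Fin n → ℤˣ) → ℤ),
    encS w n (o + c) F = encS w n o F + c * (rep w n : ℤ) := by
  intro n
  induction n with
  | zero =>
    intro o c F
    rw [pkt_encS_zero, pkt_encS_zero, pkt_rep_zero w hw]
    push_cast
    ring
  | succ n ih =>
    intro o c F
    rw [pkt_encS_succ, pkt_encS_succ, ih, ih, pkt_rep_succ w n hw]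
    push_cast
    ring

theorem pkt_encS_nonneg (w : ℕ) : ∀ (n : ℕ) (O b : ℤ) (F : (Fin n → ℤˣ) → ℤ),
    (∀ x, |F x| ≤ b) → (2 : ℤ) ^ n * b ≤ O → 0 ≤ encS w n O F := by
  intro n
  induction n with
  | zero =>
    intro O b F hF hO
    rw [pkt_encS_zero]
    have h1 := abs_le.mp (hF Fin.elim0)
    rw [pow_zero, one_mul] at hO
    linarith
  | succ n ih =>
    intro O b F hF hO
    rw [pkt_encS_succ]
    have hO' : (2 : ℤ) ^ n * (2 * b) ≤ O := by
      have e : (2 : ℤ) ^ n * (2 * b) = 2 ^ (n + 1) * b := by ring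
      rw [e]
      exact hO
    have h1 : 0 ≤ encS w n O (fun y => F (Fin.cons 1 y) + F (Fin.cons (-1) y)) := by
      apply ih O (2 * b) _ _ hO'
      intro y
      have ha := hF (Fin.cons 1 y)
      have hb := hF (Fin.cons (-1) y)
      have hc := abs_add_le (F (Fin.cons 1 y)) (F (Fin.cons (-1) y))
      linarith
    have h2 : 0 ≤ encS w n O (fun y => F (Fin.cons 1 y) - F (Fin.cons (-1) y)) := by
      apply ih O (2 * b) _ _ hO'
      intro y
      have ha := hF (Fin.cons 1 y)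
      have hb := hF (Fin.cons (-1) y)
      have hc := abs_sub (F (Fin.cons 1 y)) (F (Fin.cons (-1) y))
      linarith
    exact add_nonneg h1 (mul_nonneg h2 (Nat.cast_nonneg _))

/-! ### The transform -/

theorem pkt_main (w : ℕ) (hw1 : 1 ≤ w) : ∀ (n : ℕ) (F : (Fin n → ℤˣ) → ℤ) (A o b : ℕ),
    (∀ x, |F x| ≤ (b : ℤ)) → b ≤ o → 2 ^ (n + 1) * o < 2 ^ w →
    (A : ℤ) = encT w n (o : ℤ) F →
    ((pwht w o n A : ℕ) : ℤ) = encS w n ((2 : ℤ) ^ n * (o : ℤ)) F := by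
  intro n
  induction n with
  | zero =>
    intro F A o b _ _ _ hA
    rw [pkt_encT_zero] at hA
    rw [pkt_encS_zero, pow_zero, one_mul]
    exact hA
  | succ n ih =>
    intro F A o b hF hbo hlt hA
    have hM := pkt_pM_pos w n
    have hM1 : 1 ≤ pM w n := hM
    have hbo' : (b : ℤ) ≤ (o : ℤ) := by exact_mod_cast hbo
    have hlt' : 2 ^ (n + 1) * o < 2 ^ w :=
      lt_of_le_of_lt (Nat.mul_le_mul_right _ (Nat.pow_le_pow_right (by norm_num) (by omega))) hlt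
    have h2o : (2 : ℤ) * (o : ℤ) < (2 : ℤ) ^ w := by
      have h1 : 2 * o ≤ 2 ^ (n + 1) * o :=
        Nat.mul_le_mul_right _ (Nat.le_self_pow (by omega) 2)
      have h2 : 2 * o < 2 ^ w := lt_of_le_of_lt h1 hlt'
      exact_mod_cast h2
    have hfield : ∀ G : (Fin n → ℤˣ) → ℤ, (∀ y, |G y| ≤ (b : ℤ)) →
        ∀ y, 0 ≤ G y + (o : ℤ) ∧ G y + (o : ℤ) < (2 : ℤ) ^ w := by
      intro G hG y
      have h1 := abs_le.mp (hG y)
      constructor <;> linarith
    have hF1b : ∀ y : Fin n → ℤˣ, |F (Fin.cons 1 y)| ≤ (b : ℤ) := fun y => hF _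
    have hF2b : ∀ y : Fin n → ℤˣ, |F (Fin.cons (-1) y)| ≤ (b : ℤ) := fun y => hF _
    obtain ⟨ha0, ha0M⟩ := pkt_encT_range w n o (fun y => F (Fin.cons 1 y))
      (hfield _ hF1b)
    obtain ⟨ha1, -⟩ := pkt_encT_range w n o (fun y => F (Fin.cons (-1) y))
      (hfield _ hF2b)
    obtain ⟨a0, ha0eq⟩ := Int.eq_ofNat_of_zero_le ha0
    obtain ⟨a1, ha1eq⟩ := Int.eq_ofNat_of_zero_le ha1
    have hAeq : A = a0 + a1 * pM w n := by
      have h0 : (A : ℤ) = (a0 : ℤ) + (a1 : ℤ) * (pM w n : ℤ) := by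
        rw [hA, pkt_encT_succ, ha0eq, ha1eq]
      exact_mod_cast h0
    have ha0lt : a0 < pM w n := by
      rw [ha0eq] at ha0M
      exact_mod_cast ha0M
    have hmod : A % pM w n = a0 := by
      rw [hAeq, Nat.add_mul_mod_self_right, Nat.mod_eq_of_lt ha0lt]
    have hdiv : A / pM w n = a1 := by
      rw [hAeq, Nat.add_mul_div_right _ _ hM, Nat.div_eq_of_lt ha0lt, zero_add]
    have hL := ih (fun y => F (Fin.cons 1 y)) a0 o b hF1b hbo hlt' ha0eq.symm
    have hH := ih (fun y => F (Fin.cons (-1) y)) a1 o b hF2b hbo hlt' ha1eq.symm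
    obtain ⟨L, hLdef⟩ : ∃ L : ℕ, L = pwht w o n a0 := ⟨_, rfl⟩
    obtain ⟨H, hHdef⟩ : ∃ H : ℕ, H = pwht w o n a1 := ⟨_, rfl⟩
    rw [← hLdef] at hL
    rw [← hHdef] at hH
    have hsum : encS w n ((2 : ℤ) ^ (n + 1) * (o : ℤ))
        (fun y => F (Fin.cons 1 y) + F (Fin.cons (-1) y)) = (L : ℤ) + (H : ℤ) := by
      have h0 := pkt_encS_add w n ((2 : ℤ) ^ n * (o : ℤ)) ((2 : ℤ) ^ n * (o : ℤ))
        (fun y => F (Fin.cons 1 y)) (fun y => F (Fin.cons (-1) y))
      have e : (2 : ℤ) ^ (n + 1) * (o : ℤ) = (2 : ℤ) ^ n * (o : ℤ) + (2 : ℤ) ^ n * (o : ℤ) := by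
        ring
      rw [e, h0, hL, hH]
    have hdiff : encS w n ((2 : ℤ) ^ (n + 1) * (o : ℤ))
        (fun y => F (Fin.cons 1 y) - F (Fin.cons (-1) y))
        = (L : ℤ) - (H : ℤ) + (2 : ℤ) ^ (n + 1) * (o : ℤ) * (rep w n : ℤ) := by
      have h1 := pkt_encS_sub w n ((2 : ℤ) ^ n * (o : ℤ)) ((2 : ℤ) ^ n * (o : ℤ))
        (fun y => F (Fin.cons 1 y)) (fun y => F (Fin.cons (-1) y))
      have h2 := pkt_encS_shift w hw1 n ((2 : ℤ) ^ n * (o : ℤ) - (2 : ℤ) ^ n * (o : ℤ))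
        ((2 : ℤ) ^ (n + 1) * (o : ℤ)) (fun y => F (Fin.cons 1 y) - F (Fin.cons (-1) y))
      have e : (2 : ℤ) ^ (n + 1) * (o : ℤ)
          = (2 : ℤ) ^ n * (o : ℤ) - (2 : ℤ) ^ n * (o : ℤ) + (2 : ℤ) ^ (n + 1) * (o : ℤ) := by
        ring
      rw [h1, ← hL, ← hH] at h2
      rw [← h2, ← e]
    have hdiff_nonneg : 0 ≤ encS w n ((2 : ℤ) ^ (n + 1) * (o : ℤ))
        (fun y => F (Fin.cons 1 y) - F (Fin.cons (-1) y)) := by
      apply pkt_encS_nonneg w n _ (2 * (b : ℤ))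
      · intro y
        have ha := hF1b y
        have hb := hF2b y
        have hc := abs_sub (F (Fin.cons 1 y)) (F (Fin.cons (-1) y))
        linarith
      · have e : (2 : ℤ) ^ n * (2 * (b : ℤ)) = (2 : ℤ) ^ (n + 1) * (b : ℤ) := by ring
        rw [e]
        exact mul_le_mul_of_nonneg_left hbo' (by positivity)
    have hle : H * (pM w n - 1) ≤ L * (pM w n + 1) + 2 ^ (n + 1) * o * rep w n * pM w n := by
      zify [hM1]
      have hX := hdiff_nonneg
      rw [hdiff] at hX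
      have hMM : (0 : ℤ) ≤ (pM w n : ℤ) := Nat.cast_nonneg _
      have hLL : (0 : ℤ) ≤ (L : ℤ) := Nat.cast_nonneg _
      have hHH : (0 : ℤ) ≤ (H : ℤ) := Nat.cast_nonneg _
      nlinarith [mul_nonneg hX hMM]
    have hp : pwht w o (n + 1) A
        = L * (pM w n + 1) + 2 ^ (n + 1) * o * rep w n * pM w n - H * (pM w n - 1) := by
      rw [pkt_pwht_succ, hmod, hdiv, ← hLdef, ← hHdef]
    rw [hp, Nat.cast_sub hle, pkt_encS_succ, hsum, hdiff]
    push_cast [Nat.cast_sub hM1]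
    ring

/-- The packed transform of the spread truth table is the packed spectrum with offset `2^n`. -/
theorem pspec_eq (w n T : ℕ) (hw : n + 2 ≤ w) :
    ((pspec w n T : ℕ) : ℤ) = encS w n (2 ^ n) (fun x => ((bitFun n T x : ℤˣ) : ℤ)) := by
  have hb : ∀ x : Fin n → ℤˣ, |((bitFun n T x : ℤˣ) : ℤ)| ≤ ((1 : ℕ) : ℤ) := by
    intro x
    rcases Int.units_eq_one_or (bitFun n T x) with h | h <;> simp [h]
  have hlt : 2 ^ (n + 1) * 1 < 2 ^ w := by
    rw [mul_one]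
    exact Nat.pow_lt_pow_right (by norm_num) (by omega)
  have hA : ((2 * spread w n T : ℕ) : ℤ)
      = encT w n ((1 : ℕ) : ℤ) (fun x => ((bitFun n T x : ℤˣ) : ℤ)) := by
    rw [Nat.cast_one]
    exact pkt_spread w n T
  have h := pkt_main w (by omega) n (fun x => ((bitFun n T x : ℤˣ) : ℤ)) (2 * spread w n T) 1 1
    hb le_rfl hlt hA
  rw [Nat.cast_one, mul_one] at h
  exact h

end Vale.Agent.Lib.P047
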